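import Vale.Agent.P347Zero.StepZero
import Vale.Agent.P347Zero.DebiasFinal

/-!
P347: first-order sampling to total variation `1/10` takes `d^(o(1))` queries.
-/

open MeasureTheory Filter Real
open Vale.Agent.P347

namespace Vale.Agent.Results.P347.ExponentZero

/-- For every `ε > 0` some algorithm makes at most `C d^ε` queries and is within total variation
`1/10` of every target of the class, for all large `d`; so the dimension exponent is zero. -/
theorem result :
    (∀ ε : ℝ, 0 < ε → ∃ C : ℝ, ∀ᶠ d : ℕ in atTop, ∃ q : ℕ,
      (q : ℝ) ≤ C * (d : ℝ) ^ ε ∧ ∃ A : Alg d q (E d), Achieves A) ∧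
    limsup (fun d : ℕ => log (minQueries d) / log d) atTop = 0 :=
  ⟨upper_zero_of (stepZero_of debiasGood), exponent_zero_of (stepZero_of debiasGood)⟩

end Vale.Agent.Results.P347.ExponentZero
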